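import Vale.Agent.P109.R996.Level

/-!
# P109, block [E], part 2: change of variables, data processing, telescoping
-/

open Finset

namespace Vale.Agent.P109.Ent

variable {α α' β γ : Type*} [Fintype α] [Fintype α'] [Fintype β] [Fintype γ]

/-- Relabelling of the first variable by an equivalence. -/
theorem Hc_equiv (f : α → β → ℝ) (e : α' ≃ α) : Hc (fun a b => f (e a) b) = Hc f := by
  unfold Hc
  refine Finset.sum_congr rfl fun b _ => ?_
  have h1 : ∑ a', f (e a') b = ∑ a', f a' b := Equiv.sum_comp e (fun a => f a b)
  rw [h1]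
  exact Equiv.sum_comp e (fun a => f a b * (Real.log (∑ a', f a' b) - Real.log (f a b)))

/-- Relabelling of the second variable by an equivalence. -/
theorem Hc_equiv_right (f : α → β → ℝ) (e : γ ≃ β) : Hc (fun a b => f a (e b)) = Hc f := by
  unfold Hc
  exact Equiv.sum_comp e (fun b => ∑ a, f a b * (Real.log (∑ a', f a' b) - Real.log (f a b)))

/-- Relabelling of the first variable by an injection whose range carries the law. -/
theorem Hc_inj (f : α → β → ℝ) (i : α' → α) (hi : Function.Injective i)
    (h0 : ∀ a, a ∉ Set.range i → ∀ b, f a b = 0) : Hc (fun a b => f (i a) b) = Hc f := by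
  classical
  unfold Hc
  refine Finset.sum_congr rfl fun b _ => ?_
  have key : ∀ F : α → ℝ, (∀ a, a ∉ Set.range i → F a = 0) → ∑ a', F (i a') = ∑ a, F a := by
    intro F hF
    rw [← Finset.sum_image (f := F) (s := Finset.univ) (g := i) (fun x _ y _ h => hi h)]
    refine Finset.sum_subset (Finset.subset_univ _) fun a _ ha => hF a ?_
    rintro ⟨x, rfl⟩
    exact ha (Finset.mem_image_of_mem _ (Finset.mem_univ _))
  rw [key (fun a => f a b) (fun a ha => h0 a ha b)]
  exact key (fun a => f a b * (Real.log (∑ a', f a' b) - Real.log (f a b)))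
    (fun a ha => by simp [h0 a ha b])

/-- Image of a law under a map of the second variable. -/
def push [DecidableEq γ] (g : β → γ) (f : α → β → ℝ) : α → γ → ℝ :=
  fun a c => ∑ b, if g b = c then f a b else 0

/-- Data processing: coarsening the observed variable increases the conditional entropy. -/
theorem Hc_le_push [DecidableEq γ] (g : β → γ) (f : α → β → ℝ) (hf : ∀ a b, 0 ≤ f a b) :
    Hc f ≤ Hc (push g f) := by
  classical
  -- both sides as sums over `(a, b)`
  have hnn : ∀ a c, 0 ≤ push g f a c := fun a c => Finset.sum_nonneg fun b _ => by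
    have := hf a b; split_ifs <;> simp [this]
  have hle : ∀ a b, f a b ≤ push g f a (g b) := by
    intro a b
    have : f a b = if g b = g b then f a b else 0 := by simp
    rw [this]
    exact Finset.single_le_sum (f := fun b' => if g b' = g b then f a b' else 0)
      (fun b' _ => by have := hf a b'; split_ifs <;> simp [this]) (Finset.mem_univ b)
  have hR : Hc (push g f) = ∑ b, ∑ a, f a b *
      (Real.log (∑ a', push g f a' (g b)) - Real.log (push g f a (g b))) := by
    unfold Hc
    have h1 : ∀ c a, push g f a c * (Real.log (∑ a', push g f a' c) - Real.log (push g f a c)) =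
        ∑ b, if g b = c then f a b *
          (Real.log (∑ a', push g f a' (g b)) - Real.log (push g f a (g b))) else 0 := by
      intro c a
      conv_lhs => rw [show push g f a c = ∑ b, (if g b = c then f a b else 0) from rfl]
      rw [Finset.sum_mul]
      refine Finset.sum_congr rfl fun b _ => ?_
      split_ifs with hb
      · rw [hb]; rfl
      · simp
    simp_rw [h1]
    rw [Finset.sum_comm]
    have h2 : ∀ a, ∑ c, ∑ b, (if g b = c then f a b *
          (Real.log (∑ a', push g f a' (g b)) - Real.log (push g f a (g b))) else 0) =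
        ∑ b, f a b *
          (Real.log (∑ a', push g f a' (g b)) - Real.log (push g f a (g b))) := by
      intro a
      rw [Finset.sum_comm]
      refine Finset.sum_congr rfl fun b _ => ?_
      simp
    simp_rw [h2]
    rw [Finset.sum_comm]
  rw [hR]
  unfold Hc
  refine Finset.sum_le_sum fun b _ => ?_
  -- Gibbs for `f · b` against `(∑ f · b) * push a (g b) / ∑ push`
  set F := ∑ a', f a' b with hF
  set P := ∑ a', push g f a' (g b) with hP
  have hF0 : 0 ≤ F := Finset.sum_nonneg fun a _ => hf a b
  have hP0 : 0 ≤ P := Finset.sum_nonneg fun a _ => hnn a _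
  have hg := gibbs Finset.univ (fun a => f a b) (fun a => F * push g f a (g b) / P)
    (fun a _ => hf a b) (fun a _ => by have := hnn a (g b); positivity)
    (fun a _ ha => by
      have h2 : 0 < push g f a (g b) := lt_of_lt_of_le ha (hle a b)
      have h3 : 0 < F := lt_of_lt_of_le ha
        (Finset.single_le_sum (f := fun a => f a b) (fun i _ => hf i b) (Finset.mem_univ a))
      have h4 : 0 < P := lt_of_lt_of_le h2
        (Finset.single_le_sum (f := fun a => push g f a (g b)) (fun i _ => hnn i _)
          (Finset.mem_univ a))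
      positivity)
  have hq : ∑ a, F * push g f a (g b) / P ≤ F := by
    rw [← Finset.sum_div, ← Finset.mul_sum, ← hP]
    rcases hP0.eq_or_lt with h | h
    · rw [← h]; simp [hF0]
    · rw [mul_div_assoc, div_self h.ne', mul_one]
  have hdiff : ∑ a, f a b * (Real.log F - Real.log (f a b)) -
      ∑ a, f a b * (Real.log P - Real.log (push g f a (g b))) =
      ∑ a, f a b * (Real.log (F * push g f a (g b) / P) - Real.log (f a b)) := by
    rw [← Finset.sum_sub_distrib]
    refine Finset.sum_congr rfl fun a _ => ?_
    rcases (hf a b).eq_or_lt with h | h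
    · rw [← h]; simp
    · have h2 : 0 < push g f a (g b) := lt_of_lt_of_le h (hle a b)
      have h3 : 0 < F := lt_of_lt_of_le h
        (Finset.single_le_sum (f := fun a => f a b) (fun i _ => hf i b) (Finset.mem_univ a))
      have h4 : 0 < P := lt_of_lt_of_le h2
        (Finset.single_le_sum (f := fun a => push g f a (g b)) (fun i _ => hnn i _)
          (Finset.mem_univ a))
      rw [Real.log_div (by positivity) h4.ne', Real.log_mul h3.ne' h2.ne']
      ring
  rw [← hF] at hg
  linarith

/-- Trivial bound `H(w|v) ≤ (total mass) * log (card W)`. -/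
theorem Hc_le_log_card [Nonempty α] (f : α → β → ℝ) (hf : ∀ a b, 0 ≤ f a b) :
    Hc f ≤ (∑ b, ∑ a, f a b) * Real.log (Fintype.card α) := by
  classical
  have hk : (0 : ℝ) < (Fintype.card α : ℝ) := by exact_mod_cast Fintype.card_pos
  unfold Hc
  rw [Finset.sum_mul]
  refine Finset.sum_le_sum fun b _ => ?_
  set F := ∑ a', f a' b with hF
  have hF0 : 0 ≤ F := Finset.sum_nonneg fun a _ => hf a b
  have hg := gibbs Finset.univ (fun a => f a b) (fun _ => F / (Fintype.card α : ℝ))
    (fun a _ => hf a b) (fun a _ => by positivity)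
    (fun a _ ha => by
      have h3 : 0 < F := lt_of_lt_of_le ha
        (Finset.single_le_sum (f := fun a => f a b) (fun i _ => hf i b) (Finset.mem_univ a))
      positivity)
  rw [Finset.sum_const, Finset.card_univ, nsmul_eq_mul, mul_div_cancel₀ _ hk.ne', ← hF,
    sub_self] at hg
  have hdiff : ∑ a, f a b * (Real.log F - Real.log (f a b)) -
      F * Real.log (Fintype.card α) =
      ∑ a, f a b * (Real.log (F / (Fintype.card α : ℝ)) - Real.log (f a b)) := by
    conv_lhs => rw [hF]
    rw [Finset.sum_mul, ← Finset.sum_sub_distrib]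
    refine Finset.sum_congr rfl fun a _ => ?_
    rcases (hf a b).eq_or_lt with h | h
    · rw [← h]; simp
    · have h3 : 0 < F := lt_of_lt_of_le h
        (Finset.single_le_sum (f := fun a => f a b) (fun i _ => hf i b) (Finset.mem_univ a))
      rw [Real.log_div h3.ne' hk.ne']
      ring
  linarith

/-- Telescoping of the level inequalities. -/
theorem telescope (c x : ℕ → ℝ) (a b : ℕ) (hab : a ≤ b)
    (h : ∀ j, a ≤ j → j < b → c (j + 1) ≤ 2 * c j - x j) :
    c b / 2 ^ b ≤ c a / 2 ^ a - ∑ j ∈ Finset.Ico a b, x j / 2 ^ (j + 1) := by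
  induction b, hab using Nat.le_induction with
  | base => simp
  | succ b hab ih =>
    have h1 := ih fun j hj hjb => h j hj (by omega)
    have h2 := h b hab (by omega)
    rw [Finset.sum_Ico_succ_top hab]
    have h3 : c (b + 1) / 2 ^ (b + 1) ≤ (2 * c b - x b) / 2 ^ (b + 1) :=
      div_le_div_of_nonneg_right h2 (by positivity)
    have h4 : (2 * c b - x b) / 2 ^ (b + 1) = c b / 2 ^ b - x b / 2 ^ (b + 1) := by
      rw [sub_div, pow_succ]; field_simp
    linarith

/-- The contradiction of (2.4), purely numerical: on `[a,b)` the quantities `c` satisfy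
`c (j+1) ≤ 2 c j` always and `c (j+1) ≤ 2 c j - y * 2 ^ (j+1)` on a set `S` of levels; then
`#S * y ≤ c a / 2 ^ a`. -/
theorem card_simple_le (c : ℕ → ℝ) (a b : ℕ) (hab : a ≤ b) (S : Finset ℕ)
    (hS : S ⊆ Finset.Ico a b) {y : ℝ} (hc : 0 ≤ c b)
    (h : ∀ j, a ≤ j → j < b → c (j + 1) ≤ 2 * c j)
    (h' : ∀ j ∈ S, c (j + 1) ≤ 2 * c j - y * 2 ^ (j + 1)) :
    (S.card : ℝ) * y ≤ c a / 2 ^ a := by
  classical
  have h1 := telescope c (fun j => if j ∈ S then y * 2 ^ (j + 1) else 0) a b hab (by
    intro j hj hjb
    split_ifs with hjS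
    · exact h' j hjS
    · have := h j hj hjb; linarith)
  have h2 : ∑ j ∈ Finset.Ico a b, (if j ∈ S then y * 2 ^ (j + 1) else 0) / 2 ^ (j + 1) =
      (S.card : ℝ) * y := by
    have : ∀ j ∈ Finset.Ico a b, (if j ∈ S then y * 2 ^ (j + 1) else 0) / 2 ^ (j + 1) =
        if j ∈ S then y else 0 := by
      intro j _
      split_ifs
      · field_simp
      · simp
    rw [Finset.sum_congr rfl this, Finset.sum_ite_mem, Finset.inter_eq_right.2 hS,
      Finset.sum_const, nsmul_eq_mul]
  rw [h2] at h1
  have h3 : 0 ≤ c b / 2 ^ b := by positivity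
  linarith

end Vale.Agent.P109.Ent
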