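import Vale.Agent.P109.R996.Ent

/-!
# P109, block [E]: the abstract level inequality (2.3) and the base estimate (2.1)
-/

open Finset

namespace Vale.Agent.P109.Ent

variable {W V : Type*} [Fintype W] [Fintype V]

/-- the weight `Λ(w₁,w₂) = ∑_v L'(v) κ̃₁(w₁|v₁) κ̃₂(w₂|v₂)` over `v` near `(w₁,w₂)`. -/
noncomputable def Lam (near : W → V → Prop) [∀ w v, Decidable (near w v)]
    (k1 k2 : W → V → ℝ) (Lp : V × V → ℝ) (w : W × W) : ℝ :=
  ∑ v : V × V, if near w.1 v.1 ∧ near w.2 v.2 then Lp v * (k1 w.1 v.1 * k2 w.2 v.2) else 0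

/-- the average of the two marginals: the law of `(w,v)` on `Z_j`. -/
noncomputable def avg (μ : W × W → V × V → ℝ) : W → V → ℝ :=
  fun w v => (marg1 μ w v + marg2 μ w v) / 2

theorem two_Hc_avg (μ : W × W → V × V → ℝ) (h : ∀ w v, 0 ≤ μ w v) :
    Hc (marg1 μ) + Hc (marg2 μ) ≤ 2 * Hc (avg μ) := by
  have h1 := Hc_add_le (marg1 μ) (marg2 μ) (marg1_nonneg μ h) (marg2_nonneg μ h)
  have h2 := Hc_smul (fun w v => marg1 μ w v + marg2 μ w v) (c := (1/2 : ℝ)) (by norm_num)
    (fun w v => add_nonneg (marg1_nonneg μ h w v) (marg2_nonneg μ h w v))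
  have h3 : (fun w v => (1/2 : ℝ) * (marg1 μ w v + marg2 μ w v)) = avg μ := by
    funext w v; unfold avg; ring
  rw [h3] at h2
  linarith

/-- **Level inequality, general form.** -/
theorem level_ineq (μ : W × W → V × V → ℝ) (h : ∀ w v, 0 ≤ μ w v)
    (htot : ∑ v, ∑ w, μ w v = 1)
    (G : W × W → Prop) [DecidablePred G] (hG : ∀ w v, ¬ G w → μ w v = 0)
    (near : W → V → Prop) [∀ w v, Decidable (near w v)]
    (k1 k2 : W → V → ℝ) (Lp : V × V → ℝ) (hLp : ∀ v, 0 ≤ Lp v)
    (hk1 : ∀ w v, near w v → ker (marg1 μ) w v ≤ k1 w v)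
    (hk2 : ∀ w v, near w v → ker (marg2 μ) w v ≤ k2 w v)
    {th A C η₁ η₂ η₃ Λ : ℝ} (hC : 0 ≤ C) (hΛ : 0 ≤ Λ)
    (hLam : ∑ w : W × W, (if G w ∧ Lam near k1 k2 Lp w ≤ th then Lam near k1 k2 Lp w else 0) ≤ A)
    (hnear : 1 - η₁ ≤ ∑ v : V × V, ∑ w : W × W,
      if near w.1 v.1 ∧ near w.2 v.2 then μ w v else 0)
    (hheavy : ∑ v : V × V, ∑ w : W × W, (if th < Lam near k1 k2 Lp w then μ w v else 0) ≤ η₂)
    (hdom : ∀ S : Finset (V × V), ∑ v ∈ S, ∑ w, μ w v ≤ C * ∑ v ∈ S, Lp v + η₃) :
    Hc μ ≤ 2 * Hc (avg μ) - Λ * (1 - η₁ - η₂ - η₃ - C * A * Real.exp Λ) + Real.log 2 := by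
  classical
  have hker1 := ker_nonneg (marg1 μ) (marg1_nonneg μ h)
  have hker2 := ker_nonneg (marg2 μ) (marg2_nonneg μ h)
  set L : W × W → ℝ := Lam near k1 k2 Lp with hL
  -- the base event, without `v ∉ B`
  let E0 : W × W → V × V → Prop := fun w v =>
    G w ∧ (near w.1 v.1 ∧ near w.2 v.2) ∧ L w ≤ th
  let q : V × V → ℝ := fun v => ∑ w, (if E0 w v then
      ker (marg1 μ) w.1 v.1 * ker (marg2 μ) w.2 v.2 else 0)
  let E : W × W → V × V → Prop := fun w v => E0 w v ∧ q v ≤ Real.exp (-Λ)
  have hE : ∀ v, ∑ w, (if E w v then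
      ker (marg1 μ) w.1 v.1 * ker (marg2 μ) w.2 v.2 else 0) ≤ Real.exp (-Λ) := by
    intro v
    by_cases hv : q v ≤ Real.exp (-Λ)
    · simp only [E, hv, and_true]
      exact hv
    · simp only [E, hv, and_false, if_false, Finset.sum_const_zero]
      exact (Real.exp_pos _).le
  have main := Hc_le_of_event μ h htot E hE
  -- the bad set of `v`
  let B : Finset (V × V) := Finset.univ.filter fun v => ¬ q v ≤ Real.exp (-Λ)
  have hqnn : ∀ v, 0 ≤ q v := fun v => Finset.sum_nonneg fun w _ => by
    have := mul_nonneg (hker1 w.1 v.1) (hker2 w.2 v.2)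
    split_ifs <;> simp [this]
  have hLq : ∑ v, Lp v * q v ≤ A := by
    refine le_trans ?_ hLam
    calc ∑ v, Lp v * q v = ∑ v, ∑ w, (if E0 w v then
          Lp v * (ker (marg1 μ) w.1 v.1 * ker (marg2 μ) w.2 v.2) else 0) := by
          refine Finset.sum_congr rfl fun v _ => ?_
          simp only [q]
          rw [Finset.mul_sum]
          refine Finset.sum_congr rfl fun w _ => ?_
          split_ifs <;> simp
      _ = ∑ w, ∑ v, (if E0 w v then
          Lp v * (ker (marg1 μ) w.1 v.1 * ker (marg2 μ) w.2 v.2) else 0) := Finset.sum_comm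
      _ ≤ ∑ w, (if G w ∧ L w ≤ th then L w else 0) := by
          refine Finset.sum_le_sum fun w _ => ?_
          by_cases hw : G w ∧ L w ≤ th
          · rw [if_pos hw]
            conv_rhs => rw [hL]
            unfold Lam
            refine Finset.sum_le_sum fun v _ => ?_
            by_cases hn : near w.1 v.1 ∧ near w.2 v.2
            · have : E0 w v := ⟨hw.1, hn, hw.2⟩
              rw [if_pos this, if_pos hn]
              refine mul_le_mul_of_nonneg_left ?_ (hLp v)
              exact mul_le_mul (hk1 _ _ hn.1) (hk2 _ _ hn.2) (hker2 _ _)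
                (le_trans (hker1 _ _) (hk1 _ _ hn.1))
            · have : ¬ E0 w v := fun hh => hn hh.2.1
              rw [if_neg this, if_neg hn]
          · rw [if_neg hw]
            refine Finset.sum_nonpos fun v _ => ?_
            have : ¬ E0 w v := fun hh => hw ⟨hh.1, hh.2.2⟩
            rw [if_neg this]
  have hLB : ∑ v ∈ B, Lp v ≤ Real.exp Λ * A := by
    calc ∑ v ∈ B, Lp v ≤ ∑ v ∈ B, Real.exp Λ * (Lp v * q v) := by
          refine Finset.sum_le_sum fun v hv => ?_
          have hv' : Real.exp (-Λ) < q v := not_le.1 (Finset.mem_filter.1 hv).2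
          have h1 : 1 ≤ Real.exp Λ * q v := by
            have : Real.exp Λ * Real.exp (-Λ) ≤ Real.exp Λ * q v :=
              mul_le_mul_of_nonneg_left hv'.le (Real.exp_pos _).le
            rwa [← Real.exp_add, add_neg_cancel, Real.exp_zero] at this
          calc Lp v = Lp v * 1 := (mul_one _).symm
            _ ≤ Lp v * (Real.exp Λ * q v) := mul_le_mul_of_nonneg_left h1 (hLp v)
            _ = _ := by ring
      _ ≤ ∑ v, Real.exp Λ * (Lp v * q v) :=
          Finset.sum_le_sum_of_subset_of_nonneg (Finset.subset_univ _) fun v _ _ =>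
            mul_nonneg (Real.exp_pos _).le (mul_nonneg (hLp v) (hqnn v))
      _ = Real.exp Λ * ∑ v, Lp v * q v := by rw [Finset.mul_sum]
      _ ≤ Real.exp Λ * A := mul_le_mul_of_nonneg_left hLq (Real.exp_pos _).le
  have hμB : ∑ v ∈ B, ∑ w, μ w v ≤ C * (Real.exp Λ * A) + η₃ :=
    (hdom B).trans (by
      have := mul_le_mul_of_nonneg_left hLB hC
      linarith)
  -- mass of the event
  have hmass : 1 - η₁ - η₂ - (∑ v ∈ B, ∑ w, μ w v) ≤
      ∑ v, ∑ w, if E w v then μ w v else 0 := by
    have h1 : ∑ v : V × V, ∑ w : W × W, (if near w.1 v.1 ∧ near w.2 v.2 then μ w v else 0) ≤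
        ∑ v, ∑ w, ((if E w v then μ w v else 0) + (if th < L w then μ w v else 0)
          + (if v ∈ B then μ w v else 0)) := by
      refine Finset.sum_le_sum fun v _ => Finset.sum_le_sum fun w _ => ?_
      have hm := h w v
      by_cases hn : near w.1 v.1 ∧ near w.2 v.2
      swap
      · rw [if_neg hn]; split_ifs <;> simp [hm] <;> positivity
      rw [if_pos hn]
      by_cases hg : G w
      swap
      · rw [hG w v hg]; simp
      by_cases ht : L w ≤ th
      swap
      · rw [if_pos (not_le.1 ht)]; split_ifs <;> linarith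
      by_cases hv : q v ≤ Real.exp (-Λ)
      · have : E w v := ⟨⟨hg, hn, ht⟩, hv⟩
        rw [if_pos this]; split_ifs <;> linarith
      · have : v ∈ B := Finset.mem_filter.2 ⟨Finset.mem_univ _, hv⟩
        rw [if_pos this]; split_ifs <;> linarith
    simp only [Finset.sum_add_distrib] at h1
    have h2 : ∑ v : V × V, ∑ w : W × W, (if v ∈ B then μ w v else 0) =
        ∑ v ∈ B, ∑ w, μ w v := by
      rw [← Finset.sum_subset (Finset.subset_univ B)]
      · refine Finset.sum_congr rfl fun v hv => ?_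
        simp [hv]
      · intro v _ hv
        simp [hv]
    rw [h2] at h1
    linarith
  have hfin : Λ * (1 - η₁ - η₂ - η₃ - C * A * Real.exp Λ) ≤
      Λ * (∑ v, ∑ w, if E w v then μ w v else 0) := by
    refine mul_le_mul_of_nonneg_left ?_ hΛ
    have : C * (Real.exp Λ * A) = C * A * Real.exp Λ := by ring
    linarith
  have h2avg := two_Hc_avg μ h
  linarith

/-- `H(w|v) ≤ log 2 + log ℓ + p log k`: lists of length `ℓ` which contain `w` up to
probability `p`. -/
theorem Hc_le_of_list [Nonempty W] (m : W → V → ℝ) (h : ∀ w v, 0 ≤ m w v)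
    (htot : ∑ v, ∑ w, m w v = 1)
    (near : W → V → Prop) [∀ w v, Decidable (near w v)] {ℓ p : ℝ} (hℓ : 1 ≤ ℓ)
    (hlist : ∀ v, (((Finset.univ.filter fun w => near w v).card : ℕ) : ℝ) ≤ ℓ)
    (hp : ∑ v, ∑ w, (if near w v then 0 else m w v) ≤ p) :
    Hc m ≤ Real.log 2 + Real.log ℓ + p * Real.log (Fintype.card W) := by
  classical
  have hk : (0 : ℝ) < (Fintype.card W : ℝ) := by exact_mod_cast Fintype.card_pos
  set k : ℝ := (Fintype.card W : ℝ) with hkdef
  have hk1 : 1 ≤ k := by rw [hkdef]; exact_mod_cast Nat.one_le_iff_ne_zero.2 Fintype.card_ne_zero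
  have hℓ0 : 0 < ℓ := by linarith
  have hs0 : ∀ v, 0 ≤ ∑ w, m w v := fun v => Finset.sum_nonneg fun _ _ => h _ _
  set q : V × W → ℝ := fun x =>
    (∑ w, m w x.1) * (if near x.2 x.1 then 1 / (2 * ℓ) else 1 / (2 * k)) with hq
  have hg := gibbs (Finset.univ : Finset (V × W)) (fun x => m x.2 x.1) q
    (fun x _ => h _ _)
    (fun x _ => by
      have := hs0 x.1
      simp only [hq]
      split_ifs <;> positivity)
    (fun x _ hx => by
      have h1 : 0 < ∑ w, m w x.1 := lt_of_lt_of_le hx
        (Finset.single_le_sum (f := fun a' => m a' x.1) (fun i _ => h i x.1) (Finset.mem_univ x.2))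
      simp only [hq]
      split_ifs <;> positivity)
  have hqtot : ∑ x, q x ≤ 1 := by
    rw [Fintype.sum_prod_type]
    have : ∀ v : V, ∑ w : W, q (v, w) ≤ ∑ w, m w v := by
      intro v
      simp only [hq]
      rw [← Finset.mul_sum]
      have h2 : ∑ w : W, (if near w v then 1 / (2 * ℓ) else 1 / (2 * k)) ≤ 1 := by
        calc ∑ w : W, (if near w v then 1 / (2 * ℓ) else 1 / (2 * k)) ≤
              ∑ w : W, ((if near w v then 1 / (2 * ℓ) else 0) + 1 / (2 * k)) := by
              refine Finset.sum_le_sum fun w _ => ?_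
              split_ifs
              · have : 0 ≤ 1 / (2 * k) := by positivity
                linarith
              · simp
          _ = ((Finset.univ.filter fun w => near w v).card : ℝ) * (1 / (2 * ℓ))
              + k * (1 / (2 * k)) := by
              rw [Finset.sum_add_distrib, ← Finset.sum_filter, Finset.sum_const,
                Finset.sum_const, Finset.card_univ, nsmul_eq_mul, nsmul_eq_mul]
          _ ≤ ℓ * (1 / (2 * ℓ)) + k * (1 / (2 * k)) := by
              have := hlist v
              have h0 : 0 ≤ 1 / (2 * ℓ) := by positivity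
              have := mul_le_mul_of_nonneg_right this h0
              linarith
          _ = 1 := by field_simp; norm_num
      calc (∑ w, m w v) * _ ≤ (∑ w, m w v) * 1 := mul_le_mul_of_nonneg_left h2 (hs0 v)
        _ = _ := mul_one _
    calc ∑ v : V, ∑ w : W, q (v, w) ≤ ∑ v, ∑ w, m w v :=
          Finset.sum_le_sum fun v _ => this v
      _ = 1 := htot
  have hptot : ∑ x : V × W, m x.2 x.1 = 1 := by
    rw [Fintype.sum_prod_type]; exact htot
  rw [hptot] at hg
  have hexp : Hc m - (∑ v, ∑ w, (if near w v then 0 else m w v)) * Real.log k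
      - Real.log ℓ - Real.log 2 ≤
      ∑ x : V × W, m x.2 x.1 * (Real.log (q x) - Real.log (m x.2 x.1)) := by
    rw [Fintype.sum_prod_type]
    have e0 : Real.log 2 = ∑ v : V, ∑ w : W, m w v * Real.log 2 := by
      simp_rw [← Finset.sum_mul]; rw [htot, one_mul]
    have e1 : Real.log ℓ = ∑ v : V, ∑ w : W, m w v * Real.log ℓ := by
      simp_rw [← Finset.sum_mul]; rw [htot, one_mul]
    rw [e0, e1]
    unfold Hc
    simp only [Finset.sum_mul, ← Finset.sum_sub_distrib]
    refine Finset.sum_le_sum fun v _ => Finset.sum_le_sum fun w _ => ?_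
    rcases (h w v).eq_or_lt with h0 | h0
    · rw [← h0]; simp
    · have h1 : 0 < ∑ w, m w v := lt_of_lt_of_le h0
        (Finset.single_le_sum (f := fun a' => m a' v) (fun i _ => h i v) (Finset.mem_univ w))
      have hlogℓ : 0 ≤ Real.log ℓ := Real.log_nonneg hℓ
      simp only [hq]
      split_ifs with hn
      · rw [Real.log_mul h1.ne' (by positivity), one_div, Real.log_inv,
          Real.log_mul (by norm_num) hℓ0.ne']
        have : (0 : ℝ) * Real.log k = 0 := zero_mul _
        nlinarith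
      · rw [Real.log_mul h1.ne' (by positivity), one_div, Real.log_inv,
          Real.log_mul (by norm_num) hk.ne']
        nlinarith [mul_nonneg h0.le hlogℓ]
  have hlogk : 0 ≤ Real.log k := Real.log_nonneg hk1
  have := mul_le_mul_of_nonneg_right hp hlogk
  linarith

end Vale.Agent.P109.Ent
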