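import Mathlib

/-!
# P109, block [E]: finite entropy toolkit and the abstract level inequality

All laws are functions `f : α → β → ℝ` (first argument: the word `w`, second argument the
observed name `v`), nonnegative, not necessarily normalised.
-/

open Finset

namespace Vale.Agent.P109.Ent

variable {α β γ : Type*} [Fintype α] [Fintype β] [Fintype γ]

/-- Conditional entropy (natural logarithm) of the first variable given the second one. -/
noncomputable def Hc (f : α → β → ℝ) : ℝ :=
  ∑ b, ∑ a, f a b * (Real.log (∑ a', f a' b) - Real.log (f a b))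

/-- Gibbs' inequality for nonnegative weights. -/
theorem gibbs {ι : Type*} (s : Finset ι) (p q : ι → ℝ) (hp : ∀ i ∈ s, 0 ≤ p i)
    (hq : ∀ i ∈ s, 0 ≤ q i) (hpq : ∀ i ∈ s, 0 < p i → 0 < q i) :
    ∑ i ∈ s, p i * (Real.log (q i) - Real.log (p i)) ≤ ∑ i ∈ s, q i - ∑ i ∈ s, p i := by
  rw [← Finset.sum_sub_distrib]
  refine Finset.sum_le_sum fun i hi => ?_
  rcases (hp i hi).eq_or_lt with h | h
  · rw [← h]; simp [hq i hi]
  · have hqi := hpq i hi h
    rw [← Real.log_div hqi.ne' h.ne']
    have := Real.log_le_sub_one_of_pos (div_pos hqi h)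
    calc p i * Real.log (q i / p i) ≤ p i * (q i / p i - 1) :=
          mul_le_mul_of_nonneg_left this h.le
      _ = q i - p i := by field_simp

theorem Hc_nonneg (f : α → β → ℝ) (hf : ∀ a b, 0 ≤ f a b) : 0 ≤ Hc f := by
  refine Finset.sum_nonneg fun b _ => Finset.sum_nonneg fun a _ => ?_
  rcases (hf a b).eq_or_lt with h | h
  · rw [← h]; simp
  · refine mul_nonneg h.le (sub_nonneg.2 (Real.log_le_log h ?_))
    exact Finset.single_le_sum (f := fun a' => f a' b) (fun i _ => hf i b) (Finset.mem_univ a)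

theorem Hc_smul (f : α → β → ℝ) {c : ℝ} (hc : 0 < c) (hf : ∀ a b, 0 ≤ f a b) :
    Hc (fun a b => c * f a b) = c * Hc f := by
  unfold Hc
  rw [Finset.mul_sum]
  refine Finset.sum_congr rfl fun b _ => ?_
  rw [Finset.mul_sum]
  refine Finset.sum_congr rfl fun a _ => ?_
  rcases (hf a b).eq_or_lt with h | h
  · simp only [← h, mul_zero, zero_mul]
  · have hs : 0 < ∑ a', f a' b := lt_of_lt_of_le h
      (Finset.single_le_sum (f := fun a' => f a' b) (fun i _ => hf i b) (Finset.mem_univ a))
    rw [← Finset.mul_sum, Real.log_mul hc.ne' hs.ne', Real.log_mul hc.ne' h.ne']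
    ring

/-- Superadditivity of the conditional entropy (concavity). -/
theorem Hc_add_le (f g : α → β → ℝ) (hf : ∀ a b, 0 ≤ f a b) (hg : ∀ a b, 0 ≤ g a b) :
    Hc f + Hc g ≤ Hc (fun a b => f a b + g a b) := by
  unfold Hc
  rw [← Finset.sum_add_distrib]
  refine Finset.sum_le_sum fun b _ => ?_
  -- F, G : the sums over `a`
  set F := ∑ a', f a' b with hF
  set G := ∑ a', g a' b with hG
  have hF0 : 0 ≤ F := Finset.sum_nonneg fun i _ => hf i b
  have hG0 : 0 ≤ G := Finset.sum_nonneg fun i _ => hg i b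
  have hFG : ∑ a', (f a' b + g a' b) = F + G := by rw [Finset.sum_add_distrib]
  rw [hFG]
  rcases eq_or_lt_of_le (add_nonneg hF0 hG0) with h0 | hpos
  · have hF' : F = 0 := by linarith
    have hG' : G = 0 := by linarith
    have hfz : ∀ a, f a b = 0 := fun a =>
      (Finset.sum_eq_zero_iff_of_nonneg (fun i _ => hf i b)).1 (hF ▸ hF') a (Finset.mem_univ a)
    have hgz : ∀ a, g a b = 0 := fun a =>
      (Finset.sum_eq_zero_iff_of_nonneg (fun i _ => hg i b)).1 (hG ▸ hG') a (Finset.mem_univ a)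
    simp [hfz, hgz]
  -- Gibbs for `f` against `F (f+g)/(F+G)`, and for `g` against `G (f+g)/(F+G)`
  have key : ∀ (f' : α → ℝ) (F' : ℝ), (∀ a, 0 ≤ f' a) → F' = ∑ a, f' a → (0 ≤ F') →
      (∀ a, f' a ≤ f a b + g a b) →
      ∑ a, f' a * (Real.log F' - Real.log (f' a)) ≤
        ∑ a, f' a * (Real.log (F + G) - Real.log (f a b + g a b)) := by
    intro f' F' hf' hF' hF'0 hle
    have h1 := gibbs Finset.univ f' (fun a => F' * (f a b + g a b) / (F + G))
      (fun a _ => hf' a) (fun a _ => by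
        have := hf a b; have := hg a b; positivity) (fun a _ ha => by
        have h2 : 0 < f a b + g a b := lt_of_lt_of_le ha (hle a)
        have h3 : 0 < F' := by
          rw [hF']
          exact lt_of_lt_of_le ha (Finset.single_le_sum (f := f') (fun i _ => hf' i)
            (Finset.mem_univ a))
        positivity)
    have h2 : ∑ a, F' * (f a b + g a b) / (F + G) = F' := by
      rw [← Finset.sum_div, ← Finset.mul_sum, hFG]
      field_simp
    rw [h2, ← hF', sub_self] at h1
    have h3 : ∑ a, f' a * (Real.log F' - Real.log (f' a)) -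
        ∑ a, f' a * (Real.log (F + G) - Real.log (f a b + g a b)) =
        ∑ a, f' a * (Real.log (F' * (f a b + g a b) / (F + G)) - Real.log (f' a)) := by
      rw [← Finset.sum_sub_distrib]
      refine Finset.sum_congr rfl fun a _ => ?_
      rcases (hf' a).eq_or_lt with h | h
      · rw [← h]; simp
      · have h2 : 0 < f a b + g a b := lt_of_lt_of_le h (hle a)
        have h3 : 0 < F' := by
          rw [hF']
          exact lt_of_lt_of_le h (Finset.single_le_sum (f := f') (fun i _ => hf' i)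
            (Finset.mem_univ a))
        rw [Real.log_div (by positivity) hpos.ne', Real.log_mul h3.ne' h2.ne']
        ring
    linarith
  have e1 := key (fun a => f a b) F (fun a => hf a b) hF hF0
    (fun a => by have := hg a b; linarith)
  have e2 := key (fun a => g a b) G (fun a => hg a b) hG hG0
    (fun a => by have := hf a b; linarith)
  have e3 : ∑ a, (f a b + g a b) * (Real.log (F + G) - Real.log (f a b + g a b)) =
      ∑ a, f a b * (Real.log (F + G) - Real.log (f a b + g a b)) +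
      ∑ a, g a b * (Real.log (F + G) - Real.log (f a b + g a b)) := by
    simp only [add_mul, Finset.sum_add_distrib]
  rw [e3]
  exact add_le_add e1 e2

/-! ### Marginals of a law on `(w₁,w₂),(v₁,v₂)` -/

/-- law of `(w₁, v₁)`. -/
def marg1 {W V : Type*} [Fintype W] [Fintype V] (μ : W × W → V × V → ℝ) : W → V → ℝ :=
  fun w v => ∑ w', ∑ v', μ (w, w') (v, v')

/-- law of `(w₂, v₂)`. -/
def marg2 {W V : Type*} [Fintype W] [Fintype V] (μ : W × W → V × V → ℝ) : W → V → ℝ :=
  fun w v => ∑ w', ∑ v', μ (w', w) (v', v)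

/-- conditional law of `w` given `v` (`0` if `v` has mass zero). -/
noncomputable def ker {W V : Type*} [Fintype W] (f : W → V → ℝ) : W → V → ℝ :=
  fun w v => f w v / ∑ w', f w' v

variable {W V : Type*} [Fintype W] [Fintype V]

theorem marg1_nonneg (μ : W × W → V × V → ℝ) (h : ∀ w v, 0 ≤ μ w v) (w : W) (v : V) :
    0 ≤ marg1 μ w v := Finset.sum_nonneg fun _ _ => Finset.sum_nonneg fun _ _ => h _ _

theorem marg2_nonneg (μ : W × W → V × V → ℝ) (h : ∀ w v, 0 ≤ μ w v) (w : W) (v : V) :
    0 ≤ marg2 μ w v := Finset.sum_nonneg fun _ _ => Finset.sum_nonneg fun _ _ => h _ _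

theorem le_marg1 (μ : W × W → V × V → ℝ) (h : ∀ w v, 0 ≤ μ w v) (w w' : W) (v v' : V) :
    μ (w, w') (v, v') ≤ marg1 μ w v := by
  unfold marg1
  calc μ (w, w') (v, v') ≤ ∑ b, μ (w, w') (v, b) :=
        Finset.single_le_sum (f := fun b => μ (w, w') (v, b)) (fun _ _ => h _ _)
          (Finset.mem_univ v')
    _ ≤ ∑ a, ∑ b, μ (w, a) (v, b) :=
        Finset.single_le_sum (f := fun a => ∑ b, μ (w, a) (v, b))
          (fun _ _ => Finset.sum_nonneg fun _ _ => h _ _) (Finset.mem_univ w')

theorem le_marg2 (μ : W × W → V × V → ℝ) (h : ∀ w v, 0 ≤ μ w v) (w w' : W) (v v' : V) :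
    μ (w, w') (v, v') ≤ marg2 μ w' v' := by
  unfold marg2
  calc μ (w, w') (v, v') ≤ ∑ b, μ (w, w') (b, v') :=
        Finset.single_le_sum (f := fun b => μ (w, w') (b, v')) (fun _ _ => h _ _)
          (Finset.mem_univ v)
    _ ≤ ∑ a, ∑ b, μ (a, w') (b, v') :=
        Finset.single_le_sum (f := fun a => ∑ b, μ (a, w') (b, v'))
          (fun _ _ => Finset.sum_nonneg fun _ _ => h _ _) (Finset.mem_univ w)

theorem ker_nonneg (f : W → V → ℝ) (hf : ∀ a b, 0 ≤ f a b) (w : W) (v : V) : 0 ≤ ker f w v :=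
  div_nonneg (hf _ _) (Finset.sum_nonneg fun _ _ => hf _ _)

theorem sum_ker_le_one (f : W → V → ℝ) (v : V) : ∑ w, ker f w v ≤ 1 := by
  unfold ker
  rw [← Finset.sum_div]
  exact div_self_le_one _

theorem log_ker (f : W → V → ℝ) (hf : ∀ a b, 0 ≤ f a b) {w : W} {v : V} (h : 0 < f w v) :
    Real.log (ker f w v) = Real.log (f w v) - Real.log (∑ w', f w' v) ∧ 0 < ker f w v := by
  have hs : 0 < ∑ w', f w' v := lt_of_lt_of_le h
    (Finset.single_le_sum (f := fun a' => f a' v) (fun i _ => hf i v) (Finset.mem_univ w))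
  exact ⟨Real.log_div h.ne' hs.ne', div_pos h hs⟩

/-- `∑ μ · log κ₁ = - H(w₁ | v₁)`. -/
theorem sum_log_ker1 (μ : W × W → V × V → ℝ) (h : ∀ w v, 0 ≤ μ w v) :
    ∑ v, ∑ w, μ w v * Real.log (ker (marg1 μ) w.1 v.1) = - Hc (marg1 μ) := by
  have e1 : ∀ (w : W × W) (v : V × V), μ w v * Real.log (ker (marg1 μ) w.1 v.1) =
      μ w v * (Real.log (marg1 μ w.1 v.1) - Real.log (∑ a, marg1 μ a v.1)) := by
    intro w v
    rcases (h w v).eq_or_lt with h0 | h0
    · rw [← h0]; simp
    · rw [(log_ker (marg1 μ) (marg1_nonneg μ h)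
        (lt_of_lt_of_le h0 (le_marg1 μ h w.1 w.2 v.1 v.2))).1]
  simp_rw [e1]
  unfold Hc
  rw [Fintype.sum_prod_type]
  rw [← Finset.sum_neg_distrib]
  refine Finset.sum_congr rfl fun v _ => ?_
  rw [Finset.sum_comm, Fintype.sum_prod_type, ← Finset.sum_neg_distrib]
  refine Finset.sum_congr rfl fun w _ => ?_
  simp only []
  have : ∀ w' : W, ∑ v' : V, μ (w, w') (v, v') *
      (Real.log (marg1 μ w v) - Real.log (∑ a, marg1 μ a v)) =
      (∑ v' : V, μ (w, w') (v, v')) *
        (Real.log (marg1 μ w v) - Real.log (∑ a, marg1 μ a v)) := by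
    intro w'; rw [Finset.sum_mul]
  simp_rw [this]
  rw [← Finset.sum_mul]
  change marg1 μ w v * _ = _
  ring

/-- `∑ μ · log κ₂ = - H(w₂ | v₂)`. -/
theorem sum_log_ker2 (μ : W × W → V × V → ℝ) (h : ∀ w v, 0 ≤ μ w v) :
    ∑ v, ∑ w, μ w v * Real.log (ker (marg2 μ) w.2 v.2) = - Hc (marg2 μ) := by
  have e1 : ∀ (w : W × W) (v : V × V), μ w v * Real.log (ker (marg2 μ) w.2 v.2) =
      μ w v * (Real.log (marg2 μ w.2 v.2) - Real.log (∑ a, marg2 μ a v.2)) := by
    intro w v
    rcases (h w v).eq_or_lt with h0 | h0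
    · rw [← h0]; simp
    · rw [(log_ker (marg2 μ) (marg2_nonneg μ h)
        (lt_of_lt_of_le h0 (le_marg2 μ h w.1 w.2 v.1 v.2))).1]
  simp_rw [e1]
  unfold Hc
  rw [Fintype.sum_prod_type_right]
  rw [← Finset.sum_neg_distrib]
  refine Finset.sum_congr rfl fun v _ => ?_
  rw [Finset.sum_comm, Fintype.sum_prod_type_right, ← Finset.sum_neg_distrib]
  refine Finset.sum_congr rfl fun w _ => ?_
  simp only []
  have : ∀ w' : W, ∑ v' : V, μ (w', w) (v', v) *
      (Real.log (marg2 μ w v) - Real.log (∑ a, marg2 μ a v)) =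
      (∑ v' : V, μ (w', w) (v', v)) *
        (Real.log (marg2 μ w v) - Real.log (∑ a, marg2 μ a v)) := by
    intro w'; rw [Finset.sum_mul]
  simp_rw [this]
  rw [← Finset.sum_mul]
  change marg2 μ w v * _ = _
  ring

/-- **Entropy form of the level inequality.**  `E` is any event on `((w₁,w₂),(v₁,v₂))` whose
fibres have product mass at most `e^{-Λ}`. -/
theorem Hc_le_of_event (μ : W × W → V × V → ℝ) (h : ∀ w v, 0 ≤ μ w v)
    (htot : ∑ v, ∑ w, μ w v = 1) (E : W × W → V × V → Prop) [∀ w v, Decidable (E w v)]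
    {Λ : ℝ} (hE : ∀ v, ∑ w, (if E w v then
      ker (marg1 μ) w.1 v.1 * ker (marg2 μ) w.2 v.2 else 0) ≤ Real.exp (-Λ)) :
    Hc μ ≤ Hc (marg1 μ) + Hc (marg2 μ) - Λ * (∑ v, ∑ w, if E w v then μ w v else 0)
      + Real.log 2 := by
  classical
  -- comparison weights
  set q : (V × V) × (W × W) → ℝ := fun x =>
    (∑ w, μ w x.1) * (ker (marg1 μ) x.2.1 x.1.1 * ker (marg2 μ) x.2.2 x.1.2 *
      (if E x.2 x.1 then Real.exp Λ else 1)) / 2 with hq
  have hk1 := ker_nonneg (marg1 μ) (marg1_nonneg μ h)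
  have hk2 := ker_nonneg (marg2 μ) (marg2_nonneg μ h)
  have hs0 : ∀ v, 0 ≤ ∑ w, μ w v := fun v => Finset.sum_nonneg fun _ _ => h _ _
  have hg := gibbs (Finset.univ : Finset ((V × V) × (W × W))) (fun x => μ x.2 x.1) q
    (fun x _ => h _ _)
    (fun x _ => by
      have := hs0 x.1; have := hk1 x.2.1 x.1.1; have := hk2 x.2.2 x.1.2
      simp only [hq]
      split_ifs <;> positivity)
    (fun x _ hx => by
      have h1 : 0 < ∑ w, μ w x.1 := lt_of_lt_of_le hx
        (Finset.single_le_sum (f := fun a' => μ a' x.1) (fun i _ => h i x.1) (Finset.mem_univ x.2))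
      have h2 := (log_ker (marg1 μ) (marg1_nonneg μ h)
        (lt_of_lt_of_le hx (le_marg1 μ h x.2.1 x.2.2 x.1.1 x.1.2))).2
      have h3 := (log_ker (marg2 μ) (marg2_nonneg μ h)
        (lt_of_lt_of_le hx (le_marg2 μ h x.2.1 x.2.2 x.1.1 x.1.2))).2
      simp only [hq]
      split_ifs <;> positivity)
  -- total mass of `q`
  have hqtot : ∑ x, q x ≤ 1 := by
    rw [Fintype.sum_prod_type]
    have : ∀ v : V × V, ∑ w : W × W, q (v, w) ≤ ∑ w, μ w v := by
      intro v
      simp only [hq]
      rw [← Finset.sum_div, ← Finset.mul_sum, mul_div_assoc]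
      have h1 : ∑ w : W × W, ker (marg1 μ) w.1 v.1 * ker (marg2 μ) w.2 v.2 ≤ 1 := by
        rw [Fintype.sum_prod_type]
        simp only []
        simp_rw [← Finset.mul_sum]
        rw [← Finset.sum_mul]
        exact mul_le_one₀ (sum_ker_le_one _ _) (Finset.sum_nonneg fun _ _ => hk2 _ _)
          (sum_ker_le_one _ _)
      have h2 : ∑ w : W × W, ker (marg1 μ) w.1 v.1 * ker (marg2 μ) w.2 v.2 *
          (if E w v then Real.exp Λ else 1) ≤ 2 := by
        calc _ ≤ ∑ w : W × W, (ker (marg1 μ) w.1 v.1 * ker (marg2 μ) w.2 v.2 +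
              Real.exp Λ * (if E w v then
                ker (marg1 μ) w.1 v.1 * ker (marg2 μ) w.2 v.2 else 0)) := by
              refine Finset.sum_le_sum fun w _ => ?_
              have := mul_nonneg (hk1 w.1 v.1) (hk2 w.2 v.2)
              split_ifs
              · nlinarith [Real.exp_pos Λ]
              · simp
          _ ≤ 1 + Real.exp Λ * Real.exp (-Λ) := by
              rw [Finset.sum_add_distrib, ← Finset.mul_sum]
              exact add_le_add h1 (mul_le_mul_of_nonneg_left (hE v) (Real.exp_pos _).le)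
          _ = 2 := by rw [← Real.exp_add]; norm_num
      calc (∑ w, μ w v) * ((∑ w : W × W, ker (marg1 μ) w.1 v.1 * ker (marg2 μ) w.2 v.2 *
          (if E w v then Real.exp Λ else 1)) / 2) ≤ (∑ w, μ w v) * 1 := by
            refine mul_le_mul_of_nonneg_left ?_ (hs0 v)
            linarith
        _ = _ := mul_one _
    calc ∑ v : V × V, ∑ w : W × W, q (v, w) ≤ ∑ v, ∑ w, μ w v :=
          Finset.sum_le_sum fun v _ => this v
      _ = 1 := htot
  have hptot : ∑ x : (V × V) × (W × W), μ x.2 x.1 = 1 := by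
    rw [Fintype.sum_prod_type]; exact htot
  rw [hptot] at hg
  -- expand the logarithm
  have hexp : ∑ x : (V × V) × (W × W), μ x.2 x.1 * (Real.log (q x) - Real.log (μ x.2 x.1)) =
      Hc μ + ∑ v, ∑ w, μ w v * Real.log (ker (marg1 μ) w.1 v.1)
        + ∑ v, ∑ w, μ w v * Real.log (ker (marg2 μ) w.2 v.2)
        + Λ * (∑ v, ∑ w, if E w v then μ w v else 0) - Real.log 2 := by
    rw [Fintype.sum_prod_type]
    have e0 : Real.log 2 = ∑ v : V × V, ∑ w : W × W, μ w v * Real.log 2 := by
      simp_rw [← Finset.sum_mul]; rw [htot, one_mul]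
    rw [e0]
    unfold Hc
    simp only [Finset.mul_sum, ← Finset.sum_add_distrib, ← Finset.sum_sub_distrib]
    refine Finset.sum_congr rfl fun v _ => Finset.sum_congr rfl fun w _ => ?_
    rcases (h w v).eq_or_lt with h0 | h0
    · rw [← h0]; simp
    · have h1 : 0 < ∑ w, μ w v := lt_of_lt_of_le h0
        (Finset.single_le_sum (f := fun a' => μ a' v) (fun i _ => h i v) (Finset.mem_univ w))
      have h2 := (log_ker (marg1 μ) (marg1_nonneg μ h)
        (lt_of_lt_of_le h0 (le_marg1 μ h w.1 w.2 v.1 v.2))).2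
      have h3 := (log_ker (marg2 μ) (marg2_nonneg μ h)
        (lt_of_lt_of_le h0 (le_marg2 μ h w.1 w.2 v.1 v.2))).2
      simp only [hq]
      split_ifs with hEw
      · rw [Real.log_div (by positivity) (by norm_num), Real.log_mul h1.ne' (by positivity),
          Real.log_mul (by positivity) (Real.exp_pos _).ne', Real.log_mul h2.ne' h3.ne',
          Real.log_exp]
        ring
      · rw [Real.log_div (by positivity) (by norm_num), Real.log_mul h1.ne' (by positivity),
          mul_one, Real.log_mul h2.ne' h3.ne']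
        ring
  rw [hexp, sum_log_ker1 μ h, sum_log_ker2 μ h] at hg
  linarith

end Vale.Agent.P109.Ent
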